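import Vale.Agent.N050.Gap

/-!
Counterexamples to Sidorenko's conjecture of maximum degree three and arbitrarily large girth:
the complete graph on four vertices with the three pairs of opposite edges replaced by paths of
lengths `a`, `b`, `c`, where `a < c` are odd, `b` is even and the triangle inequalities hold.
-/

namespace Vale.Agent.Results.P050.A0LargeGirth

open Vale.Agent.N050 Vale.Agent.P050

theorem family {a b c : ℕ} (ha : Odd a) (hb : Even b) (hc : Odd c) (h1 : a < c) (h2 : c < a + b)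
    (h3 : b < a + c) :
    (subK4 ![a, a, b, b, c, c]).IsBipartite ∧ (subK4 ![a, a, b, b, c, c]).Connected ∧
      (∀ v, ((subK4 ![a, a, b, b, c, c]).neighborSet v).ncard ≤ 3) ∧
      ((a + b + c : ℕ) : ℕ∞) ≤ (subK4 ![a, a, b, b, c, c]).egirth ∧
      Nat.card (subK4 ![a, a, b, b, c, c]).edgeSet = 2 * (a + b + c) ∧
      Nat.card (Vx ![a, a, b, b, c, c]) + 2 = 2 * (a + b + c) ∧
      ∃ (X : Type) (_ : Finite X) (_ : Nonempty X) (G : SimpleGraph X),
        homDensity (subK4 ![a, a, b, b, c, c]) G <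
          edgeDensity G ^ Nat.card (subK4 ![a, a, b, b, c, c]).edgeSet := by
  have A := adm_of ha hb hc h1 h2 h3
  have hs : a + b + c = 2 * ((a + b + c) / 2) := A.sum
  have hl : ∀ p, 0 < (![a, a, b, b, c, c] : Fin 6 → ℕ) p := fun p => by have := A.two p; omega
  refine ⟨subK4_bipartite A, subK4_connected hl, subK4_degree, ?_, ?_, ?_, exists_host A⟩
  · rw [SimpleGraph.le_egirth]
    intro v w hw
    exact_mod_cast hs.le.trans (subK4_girth A w hw)
  · rw [subK4_card_edges A]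
    omega
  · rw [Nat.card_eq_fintype_card, ← card_Ed_eq hl, card_Ed A]
    omega

end Vale.Agent.Results.P050.A0LargeGirth

theorem Vale.Agent.Results.P050.A0LargeGirth.result :
    (∀ a b c : ℕ, Odd a → Even b → Odd c → a < c → c < a + b → b < a + c →
      ∀ H, H = Vale.Agent.N050.subK4 ![a, a, b, b, c, c] →
        H.IsBipartite ∧ H.Connected ∧ (∀ v, (H.neighborSet v).ncard ≤ 3) ∧
        ((a + b + c : ℕ) : ℕ∞) ≤ H.egirth ∧ Nat.card H.edgeSet = 2 * (a + b + c) ∧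
        Nat.card (Vale.Agent.N050.Vx ![a, a, b, b, c, c]) = 2 * (a + b + c) - 2 ∧
        ∃ δ : ℝ, 0 < δ ∧ ∀ η : ℝ, 0 < η →
          ∃ (X : Type) (_ : Finite X) (_ : Nonempty X) (G : SimpleGraph X) (p : ℝ),
            p = 2 * (Nat.card G.edgeSet : ℝ) / (Nat.card X : ℝ) ^ 2 ∧ 0 < p ∧ p < η ∧
            (Nat.card (H →g G) : ℝ) / (Nat.card X : ℝ) ^ (2 * (a + b + c) - 2) <
              p ^ ((2 * (a + b + c) : ℝ) + δ)) ∧
    ∀ g : ℕ, ∃ (V : Type) (_ : Finite V) (H : SimpleGraph V),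
      H.IsBipartite ∧ H.Connected ∧ (∀ v, (H.neighborSet v).ncard ≤ 3) ∧ (g : ℕ∞) ≤ H.egirth ∧
      H.edgeSet.Nonempty ∧ Nat.card H.edgeSet = Nat.card V + 2 ∧
      ∃ (X : Type) (_ : Finite X) (_ : Nonempty X) (G : SimpleGraph X),
        (Nat.card (H →g G) : ℝ) / (Nat.card X : ℝ) ^ Nat.card V <
          (2 * (Nat.card G.edgeSet : ℝ) / (Nat.card X : ℝ) ^ 2) ^ Nat.card H.edgeSet := by
  have h3 : ∀ g : ℕ, ∃ (V : Type) (_ : Finite V) (H : SimpleGraph V),
      H.IsBipartite ∧ H.Connected ∧ (∀ v, (H.neighborSet v).ncard ≤ 3) ∧ (g : ℕ∞) ≤ H.egirth ∧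
      H.edgeSet.Nonempty ∧ Nat.card H.edgeSet = Nat.card V + 2 ∧
      ∃ (X : Type) (_ : Finite X) (_ : Nonempty X) (G : SimpleGraph X),
        (Nat.card (H →g G) : ℝ) / (Nat.card X : ℝ) ^ Nat.card V <
          (2 * (Nat.card G.edgeSet : ℝ) / (Nat.card X : ℝ) ^ 2) ^ Nat.card H.edgeSet := by
    intro g
    obtain ⟨b1, b2, b3, b4, b5, b6, b7⟩ := Vale.Agent.Results.P050.A0LargeGirth.family
      (a := 2 * g + 3) (b := 2 * g + 4) (c := 2 * g + 5) ⟨g + 1, by ring⟩ ⟨g + 2, by ring⟩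
      ⟨g + 2, by ring⟩ (by omega) (by omega) (by omega)
    refine ⟨_, inferInstance, _, b1, b2, b3, le_trans (by exact_mod_cast (by omega)) b4, ?_,
      by omega, b7⟩
    exact Set.nonempty_coe_sort.1 (Nat.card_pos_iff.1 (by rw [b5]; omega)).1
  refine ⟨?_, h3⟩
  · rintro a b c ha hb hc h1 h2 h3 H rfl
    obtain ⟨b1, b2, b3, b4, b5, b6, X, _, _, G, hG⟩ :=
      Vale.Agent.Results.P050.A0LargeGirth.family ha hb hc h1 h2 h3
    have b7 : Nat.card (Vale.Agent.N050.Vx ![a, a, b, b, c, c]) = 2 * (a + b + c) - 2 := by omega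
    refine ⟨b1, b2, b3, b4, b5, b7, ?_⟩
    rw [b5] at hG
    obtain ⟨δ, hδ, h⟩ := Vale.Agent.N050.exists_gap _ G (by omega) hG
    refine ⟨δ, hδ, fun η hη => ?_⟩
    obtain ⟨Y, _, _, Γ, c1, c2, c3⟩ := h η hη
    refine ⟨Y, inferInstance, inferInstance, Γ, _, rfl, c1, c2, ?_⟩
    unfold Vale.Agent.P050.homDensity Vale.Agent.P050.edgeDensity at c3
    rw [b7] at c3
    exact_mod_cast c3
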